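import Vale.Agent.P354YM.Props
import Vale.Agent.P354YV.Trk
import Vale.Agent.P354LN.Mo

/-!
The kick KCK of the conditional track: definitions and exact statements of the pieces.
-/

open scoped ContDiff
open Set Filter Topology

noncomputable section

namespace Vale.Agent.P354KX

open Vale.Agent.P354n (R4)
open Vale.Agent.P354H (X3)
open Vale.Agent.P354C (Ix met detP)
open Vale.Agent.P354A (cmp Pb)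
open Vale.Agent.P354I (X Dat Con pm rm)
open Vale.Agent.P354J (PDy Ud Phi)
open Vale.Agent.P354E (sg)
open Vale.Agent.P354R (Pull)
open Vale.Agent.P354GT (Fu)
open Vale.Agent.P354PU (JG pg)
open Vale.Agent.P354XS (DA qm)
open Vale.Agent.P354XE (Tw pt xs rd mir ch En Lor Tm Bd)
open Vale.Agent.P354XU (Jt IndAt)
open Vale.Agent.P354XB (Pa Box Win Gro Slab Kick top)
open Vale.Agent.P354XP (Cht Hull dir)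
open Vale.Agent.P354YJ (RT Ab iv)
open Vale.Agent.P354YX (pT)
open Vale.Agent.P354YV (Sp TRK)
open Vale.Agent.P354EN (Dm)
open Vale.Agent.P354LN (Mo Ms Ca)
open Vale.Agent.P354YM

/-- The mirror on the initial slice, the labels of the top slice, the ingoing null vector and the
optical function v. -/
def mx (M a : ℝ) (b : Bool) (y : X) : X := bif b then y else xs (mir M a (pt 0 y))
def lb (b σ : Bool) (z : X3) : X := bif b then Phi σ z else iv (Phi σ z)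
def nv : R4 := (1, -1, 0, 0)
def vv (p : R4) : ℝ := p.1 + p.2.1

/-- The box of the kicked solution, a compact set which contains the support of the kick, and
compact boxes for the two charts. -/
abbrev Bk (T δ R w : ℝ) : Set R4 := Box (-δ) (T + δ) (R - 2 * w) (R + 5 / 2 * w) (9 / 2)
def Sk (T δ R w : ℝ) : Set R4 :=
  {p | p.1 ∈ Icc (-δ) (T + δ) ∧ vv p ∈ Icc (R - 15 / 8 * w) (R + 5 / 2 * w) ∧ ‖p.2.2‖ ≤ 4}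
def Cb (T δ R w : ℝ) : Set R4 :=
  {p | p.1 ∈ Icc (-δ) (T + δ) ∧ vv p ∈ Icc (R - 23 / 8 * w) (R + 31 / 8 * w) ∧ ‖p.2.2‖ ≤ 5}
def Nb (T δ R w : ℝ) : Set R4 :=
  {p | p.1 ∈ Icc 0 (T + δ) ∧ vv p ∈ Icc (R - 11 / 4 * w) (R + 15 / 4 * w) ∧ ‖p.2.2‖ ≤ 2}
def Nz (R w : ℝ) : Set X3 := {z | z.1 ∈ Icc (R - 11 / 4 * w) (R + 15 / 4 * w) ∧ ‖z.2‖ ≤ 2}

/-- The clamp. -/
def cl (R w v : ℝ) : ℝ := max (R - 11 / 4 * w) (min v (R + 15 / 4 * w))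

/-- The slab in the development: Ψ is a double null chart from T = 0 to the slice J. -/
structure Sb (g : Tw) (D : Set R4) (Xf : R4 → R4) (J : X → R4) (b σ : Bool) (T δ R w : ℝ)
    (U : R4 → Ix → ℝ) (Ψ : R4 → R4) (j : X3 → X) : Prop where
  pos : 0 < T ∧ 0 < δ ∧ 0 < w
  fu : Fu U (Dm T δ R w)
  pull : Pull Ψ (met U) (Dm T δ R w) g D
  inj : InjOn Ψ (Dm T δ R w)
  fut : ∀ p ∈ Dm T δ R w, g (Ψ p) (fderiv ℝ Ψ p nv) (Xf (Ψ p)) < 0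
  bot : ∀ z ∈ Win R w 6, Ψ (0, z) = pt 0 (j z)
  top : ∀ z ∈ Win R w 6, Ψ (pT T z) = J (lb b σ z)
  up : ∀ p ∈ Dm T δ R w, 0 < p.1 → 0 < (Ψ p).1
  pole : ∀ p ∈ Dm T δ R w, 0 ≤ p.1 → ‖p.2.2‖ ≤ 1 / 2 → 0 < sg σ * (Ψ p).2.2.2

/-- The slab in the ingoing chart of the end b. -/
structure Sq (M a r1 r2 θ : ℝ) (b : Bool) (n : ℕ) (T δ R w G : ℝ) (Ψ Ps : R4 → R4) : Prop where
  eq : ∀ p ∈ Dm T δ R w, Ψ p = ch M a b (Ps p) ∧ rm M a < rd (Ps p) ∧ ContDiffAt ℝ ∞ Ps p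
  pt : ∀ p ∈ Dm T δ R w, 0 ≤ p.1 → Ps p ∈ En M a r1 θ ∧ r2 < rd (Ps p) ∧
    R / 4 ≤ (Ps p).1 + rd (Ps p) ∧
      (rd (Ps p) ≤ 6 * M → Jt n Ps p G ∧ ∀ v, ‖v‖ ≤ G * ‖fderiv ℝ Ps p v‖)

/-- The bottom of the slab: v increases in the outward directions with the slope l. -/
structure Mn (R w l : ℝ) (j : X3 → X) : Prop where
  mono : ∀ z ∈ Win R w 6, ∀ ξ ≠ 0,
    l * ‖fderiv ℝ (fun x => dir (j x)) z ξ‖ ≤ fderiv ℝ (fun x => ‖j x‖) z ξ → 0 < ξ.1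
  far : ∀ z ∈ Win R w 6, 2 ≤ ‖z.2‖ → j z ∉ Hull l (j '' Sp R w)

/-- S1: the slab exists. -/
def S1 : Prop :=
  ∀ (j0 : Jd) (s δ : ℝ), j0.Is → j0.a ≠ 0 → |j0.a| < j0.M → 1 < s → 0 < δ → ∃ β, ∃ c > 0,
    ∃ w1 > 0, ∀ w ∈ Ioc 0 w1, ∀ n : ℕ, ∀ t ≥ 0, ∀ j, j = j0.t t → ∀ r1 r0 r2,
    Bs j.M j.a r1 r0 r2 s δ → j.Rad r2 → ∃ bb, ∃ cP > 0, ∀ c0 > 0, Evt j.M j.a r1 s δ fun P =>
      ∀ d (T : Tg) J Z, PDy d → T.Is P d → Exact j Z J T.q → ∀ b σ, ∀ κ > 0, ∀ ρ0, ∃ R1,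
        ∀ R ≥ R1, ∃ T' δ' G ν ρ γ π U jj Ps, Gro (T' + δ') G ν γ ∧
          Slab n T' δ' R w G β γ π U ∧ ρ0 ≤ ρ ∧ ρ ≤ G ∧ R ≤ G ∧ G ≤ Real.exp (κ * R) ∧
          Cht n R w G ρ c σ jj ∧ Mn R w (c0 * ρ) jj ∧
          (∀ z ∈ P354YX.Tw R w, cP ≤ detP (U (pT T' z)) ∧ RT (top U T') z = top U T' z ∧
            ∀ i, Ab 5 (cmp (top U T') i) z bb) ∧
          Sb T.g T.D T.Xf J b σ T' δ' R w U (ch j.M j.a b ∘ Ps) (mx j.M j.a b ∘ jj) ∧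
          Sq j.M j.a r1 r2 P.θ b n T' δ' R w G (ch j.M j.a b ∘ Ps) Ps

/-- TRKB: TRK for the end b. -/
def TRKB : Prop :=
  ∃ Λ : ℝ, ∀ (β : ℝ) (k : ℕ), ∃ w0 > 0, ∀ w ∈ Ioc 0 w0, ∃ n : ℕ, ∀ (bb cP : ℝ), 0 < cP →
    ∀ c > 0, ∃ c0 > 0, ∀ M a : ℝ, |a| < M → ∀ (d : DA M a) (m : ℕ) (b : Bool),
    ∃ (N : ℕ) (ρ0 : ℝ),
      ∀ (σ : Bool) (T δ R G ν ρ A l : ℝ) (γ π : ℝ → ℝ) (U : R4 → Ix → ℝ) (j : X3 → X), 0 < T →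
        0 < δ → Gro (T + δ) G ν γ → Slab n T δ R w G β γ π U → ρ0 ≤ ρ → ρ ≤ G →
        Cht n R w G ρ c σ j →
        (∀ z ∈ Win R w 6, P354J.Ind (U (0, z)) (pg (mx M a b ∘ j) d.1.h z)
          (pg (mx M a b ∘ j) d.1.K z) ∧
          (z.1 ≤ R - w ∨ 2 ≤ ‖z.2‖ → j z ∉ Hull (c0 * ρ) (j '' Sp R w))) →
        (∀ z ∈ P354YX.Tw R w, cP ≤ detP (U (pT T z)) ∧ RT (top U T) z = top U T z ∧
          ∀ i, Ab 5 (cmp (top U T) i) z bb) →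
        G ^ N ≤ l → 0 < A → A * (l * G) ^ N ≤ 1 →
        ∃ d' : DA M a, qm m d'.1 d.1 ≤ ENNReal.ofReal (A * (l * G) ^ N) ∧
          (∀ y ≠ 0, mx M a b y ∉ Hull (c0 * ρ) (j '' Sp R w) →
            d'.1.h y = d.1.h y ∧ d'.1.K y = d.1.K y) ∧
          ∃ δ' ∈ Ioc 0 δ, ∃ U', Fu U' (Bk T δ' R w) ∧
            (∀ p ∈ Bk T δ' R w, 0 < detP (U' p) ∧
              (vv p ≤ R - 3 / 2 * w ∨ 3 ≤ ‖p.2.2‖ → U' p = U p) ∧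
              (p.1 = 0 → P354J.Ind (U' p) (pg (mx M a b ∘ j) d'.1.h p.2)
                (pg (mx M a b ∘ j) d'.1.K p.2)) ∧
              (0 ≤ p.1 → ∀ i, Pa l k (cmp (U' - U) i) p (A * G ^ N))) ∧
            Kick Λ R w A (top U T) (RT (top U' T))

/-- MIRT: the data are mirrored. MX: the mirror is an involution. -/
def MIRT : Prop := TRK → TRKB
def MX : Prop :=
  ∀ M a b, |a| < M → ContDiffOn ℝ ∞ (mx M a b) {0}ᶜ ∧ (∀ y ≠ 0, mx M a b y ≠ 0 ∧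
    mx M a b (mx M a b y) = y ∧ ∃ c > 0, mx M a b y 2 = c * y 2) ∧
    ∀ (j : X3 → X) z, DifferentiableAt ℝ j z → j z ≠ 0 → (JG j z).det ≠ 0 →
      (JG (mx M a b ∘ j) z).det ≠ 0

/-- The two charts have the same rays. -/
structure Two (T δ : Bool → ℝ) (δ1 δ2 R w : ℝ) (Ψ : Bool → R4 → R4) : Prop where
  same : ∀ p ∈ Cb (T true) δ2 R w, ∀ p' ∈ Cb (T false) δ2 R w, Ψ true p = Ψ false p' →
    vv p = vv p'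
  cov : ∀ σ, ∀ p ∈ Dm (T σ) (δ σ) R w, 0 ≤ p.1 → p.1 ≤ T σ ∨ p ∈ Cb (T σ) δ2 R w →
    1 / 2 ≤ ‖p.2.2‖ → ∃ p', p'.1 ∈ Icc 0 (T (!σ) + δ1) ∧ vv p' = vv p ∧ ‖p'.2.2‖ ≤ 2 ∧
      Ψ (!σ) p' = Ψ σ p
  neg : ∀ σ, ∀ p ∈ Cb (T σ) δ2 R w, p.1 < 0 → (Ψ σ p).1 < 0

/-- SAME: the lines along nv are the same null geodesics. -/
def SAME : Prop :=
  ∀ g D Xf J b (T δ : Bool → ℝ) R w (U : Bool → R4 → Ix → ℝ) (Ψ : Bool → R4 → R4)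
    (j : Bool → X3 → X), Lor g D Xf →
    (∀ σ, Sb g D Xf J b σ (T σ) (δ σ) R w (U σ) (Ψ σ) (j σ) ∧
      ∀ z ∈ Win R w 6, Tm g Xf (fun x => x.1) (Ψ σ (0, z))) →
    ∀ δ1 > 0, (∀ σ, δ1 < δ σ) → ∃ δ2 ∈ Ioc 0 δ1, Two T δ δ1 δ2 R w Ψ

/-- HUL: the function v on the whole initial slice. -/
def HUL : Prop :=
  ∀ (n : ℕ) (R w c c0 : ℝ) (G ρ : Bool → ℝ) (j : Bool → X3 → X), 0 < w → 0 < c0 →
    (∀ σ, 0 < G σ ∧ 0 < ρ σ ∧ Cht n R w (G σ) (ρ σ) c σ (j σ) ∧ Mn R w (c0 * ρ σ) (j σ) ∧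
      ∀ z ∈ Win R w 6, (‖z.2‖ ≤ 1 / 2 → 0 < sg σ * j σ z 2) ∧
        (1 / 2 ≤ ‖z.2‖ → ∃ z' : X3, z'.1 = z.1 ∧ ‖z'.2‖ ≤ 2 ∧ j (!σ) z' = j σ z)) →
    ∃ f : X → ℝ, ContinuousOn f {0}ᶜ ∧ (∀ σ, ∀ z ∈ Win R w 6, f (j σ z) = cl R w z.1) ∧
      (∀ y ≠ 0, (∀ σ, y ∉ j σ '' Nz R w) → f y = R - 11 / 4 * w ∨ f y = R + 15 / 4 * w) ∧
      (∀ y ≠ 0, (∀ σ, ‖y‖ < ρ σ) → f y = R - 11 / 4 * w) ∧
      ∀ σ, ∀ y ∈ Hull (4 * c0 * ρ σ) (j σ '' Sp R w), f y ≤ R + 5 / 2 * w →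
        ∃ z : X3, z.1 ∈ Ioc (R - w) (R + 5 / 2 * w) ∧ ‖z.2‖ < 2 ∧ y = j σ z

/-- VH: the function v on a lens which ends just above the top of the slabs. -/
def VH : Prop :=
  ∀ g D Xf J b (T δ : Bool → ℝ) R w (U : Bool → R4 → Ix → ℝ) (Ψ : Bool → R4 → R4)
    (j : Bool → X3 → X) δ1 δ2 W τ V d (f : X → ℝ), Lor g D Xf →
    (∀ σ, Sb g D Xf J b σ (T σ) (δ σ) R w (U σ) (Ψ σ) (j σ) ∧ δ1 < δ σ) → δ2 ∈ Ioc 0 δ1 →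
    Two T δ δ1 δ2 R w Ψ → W ⊆ D → Lens W g Xf τ V d → ContinuousOn f {0}ᶜ →
    (∀ σ, ∀ z ∈ Win R w 6, f (j σ z) = cl R w z.1) →
    (∀ y ≠ 0, (∀ σ, y ∉ j σ '' Nz R w) → f y = R - 11 / 4 * w ∨ f y = R + 15 / 4 * w) →
    (∀ σ, ∀ p ∈ Cb (T σ) δ1 R w, Ψ σ p ∈ KV W τ V → p.1 < T σ + δ2 ∧
      ∀ s ∈ Icc 0 p.1, Ψ σ (s, vv p - s, p.2.2) ∈ KV W τ V) →
    ∃ vh : R4 → ℝ, (∀ y, pt 0 y ∈ KV W τ V → vh (pt 0 y) = f y) ∧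
      (∀ σ (p : R4), p.1 ∈ Ico 0 (T σ + δ2) → vv p ∈ Ioo (R - 23 / 8 * w) (R + 31 / 8 * w) →
        ‖p.2.2‖ < 5 → ∀ᶠ q in 𝓝 p, vh (Ψ σ q) = cl R w (vv q)) ∧
      ∀ x ∈ KV W τ V, (∀ σ, x ∉ Ψ σ '' Nb (T σ) δ2 R w) →
        (∀ᶠ z in 𝓝 x, vh z = R - 11 / 4 * w) ∨ ∀ᶠ z in 𝓝 x, vh z = R + 15 / 4 * w

/-- The future causal vectors in a double null chart. -/
def Cn (U : R4 → Ix → ℝ) (p w : R4) : Prop := w ≠ 0 ∧ met U p w w ≤ 0 ∧ 0 ≤ w.1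

/-- GLUE: the kicked metric. CV: monotone functions in a double null chart. -/
def GLUE : Prop :=
  ∀ g D Xf J b σ T δ R w U Ψ j U' δ' δ3, Lor g D Xf → Sb g D Xf J b σ T δ R w U Ψ j → 0 < δ3 →
    δ3 < δ' → δ' ≤ δ → Fu U' (Bk T δ' R w) →
    (∀ p ∈ Bk T δ' R w, vv p ≤ R - 3 / 2 * w ∨ 3 ≤ ‖p.2.2‖ → U' p = U p) →
    ∃ g' X', Lor g' (Ψ '' Bk T δ3 R w ∪ D \ Ψ '' Sk T δ3 R w) X' ∧
      Pull Ψ (met U') (Bk T δ3 R w) g' (Ψ '' Bk T δ3 R w ∪ D \ Ψ '' Sk T δ3 R w) ∧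
      (∀ p ∈ Bk T δ3 R w, g' (Ψ p) (fderiv ℝ Ψ p nv) (X' (Ψ p)) < 0) ∧
      ∀ x ∉ Ψ '' Sk T δ3 R w, g' x = g x ∧ X' x = Xf x
def CV : Prop :=
  (∀ g D Xf Ψ U B p, Lor g D Xf → Pull Ψ (met U) B g D → Fu U B → p ∈ B →
    g (Ψ p) (fderiv ℝ Ψ p nv) (Xf (Ψ p)) < 0 →
    (∀ w, Ca g Xf (Ψ p) (fderiv ℝ Ψ p w) ↔ Cn U p w) ∧ ∀ h F : R4 → ℝ,
      (∀ᶠ q in 𝓝 p, h (Ψ q) = F q) → (Mo (Cn U p) F p → Mo (Ca g Xf (Ψ p)) h (Ψ p)) ∧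
        (Ms (Cn U p) F p → Ms (Ca g Xf (Ψ p)) h (Ψ p))) ∧
  ∀ U p w, 0 < U p .O → detP (U p) ≠ 0 → Cn U p w → 0 < w.1 ∧ 0 ≤ vv w

/-- TIME: a time function on the support of the kick. -/
def TIME : Prop :=
  ∀ T δ' δ3 R w U, 0 < w → δ3 < δ' → Fu U (Bk T δ' R w) → ∃ φ : R4 → ℝ, ContDiff ℝ 1 φ ∧
    (∀ p, vv p ≤ R - 15 / 8 * w ∨ 4 ≤ ‖p.2.2‖ → φ p = 0) ∧ ∀ p ∈ Bk T δ3 R w, |φ p| ≤ 1 ∧
      (vv p ≤ R + 39 / 16 * w → Mo (Cn U p) (fun q => vv q + φ q) p ∧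
        (R - 7 / 4 * w ≤ vv p → ‖p.2.2‖ ≤ 13 / 4 → Ms (Cn U p) (fun q => vv q + φ q) p))

/-- SJ: the jets of the change of the metric in space-time. -/
def SJ : Prop :=
  ∀ k0 : ℕ, ∃ k N : ℕ, ∀ (G l E : ℝ) U U' (B : Set R4) p, IsOpen B → p ∈ B → Fu U B → Fu U' B →
    2 ≤ G → 1 ≤ l → G⁻¹ ≤ U p .O → G⁻¹ ≤ detP (U p) →
    (∀ i, Pb k (cmp U i) p G ∧ Pa l k (cmp (U' - U) i) p E) → E * (l * G) ^ N ≤ 1 →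
    Bd k0 (met U' - met U) p (E * (l * G) ^ N)

/-- CLF: the kicked metric is close to Kerr in the near zone. -/
def CLF : Prop :=
  ∀ k0 : ℕ, ∃ n : ℕ, ∀ M a r1 r0 r2 s δ, Bs M a r1 r0 r2 s δ → ∃ N : ℕ,
    Evt M a r1 s δ fun P => ∃ R1, ∀ d (T : Tg) J b σ T' δ0 δ3 R w G E U U' Ψ Ps j W g' X' K, T.Is P d → R1 ≤ R → R ≤ G →
      δ3 ≤ δ0 → Sb T.g T.D T.Xf J b σ T' δ0 R w U Ψ j → Sq M a r1 r2 P.θ b n T' δ0 R w G Ψ Ps →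
      Lor g' W X' → Fu U' (Bk T' δ3 R w) → Pull Ψ (met U') (Bk T' δ3 R w) g' W →
      (∀ p ∈ Bk T' δ3 R w, g' (Ψ p) (fderiv ℝ Ψ p nv) (X' (Ψ p)) < 0 ∧
        (0 ≤ p.1 → Bd k0 (met U' - met U) p E)) → E * G ^ N ≤ 1 →
      (∀ x ∈ K, (∀ᶠ z in 𝓝 x, g' z = T.g z ∧ X' z = T.Xf z) ∨
        ∃ p ∈ Bk T' δ3 R w, 0 ≤ p.1 ∧ x = Ψ p) → Cls (P.n k0) K g' X' T.q

/-- KD2: the data on the top slice. -/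
def KD2 : Prop :=
  ∀ s : ℝ, ∃ k N : ℕ, ∀ w > 0, ∃ R1 : ℝ, ∀ b σ Λ T δ R G l E A U U' d1, R1 ≤ R → R ≤ G →
    1 ≤ l → 0 < T → 0 < δ → PDy d1 → Con d1 → Fu U (Bk T δ R w) → Fu U' (Bk T δ R w) →
    (∀ p ∈ Bk T δ R w, 0 < detP (U' p) ∧ (vv p ≤ R - 3 / 2 * w ∨ 3 ≤ ‖p.2.2‖ → U' p = U p)) →
    (∀ z ∈ P354YX.Tw R w,
      P354J.Ind (U (pT T z)) (pg (lb b σ) d1.h z) (pg (lb b σ) d1.K z) ∧
      RT (top U T) z = top U T z ∧ G⁻¹ ≤ U (pT T z) .O ∧ G⁻¹ ≤ detP (U (pT T z)) ∧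
      ∀ i, Pb k (cmp U i) (pT T z) G ∧ Pa l k (cmp (U' - U) i) (pT T z) E) →
    E * (l * G) ^ N ≤ 1 → Kick Λ R w A (top U T) (RT (top U' T)) →
    ∃ d2, PDy d2 ∧ pm s 11 d2 d1 ≤ ENNReal.ofReal (E * (l * G) ^ N) ∧
      Kk b Λ R w A (Ud d1 σ) (Ud d2 σ) ∧
      (∀ z ∈ P354YX.Tw R w, z.1 ≤ R + 9 / 4 * w →
        P354J.Ind (U' (pT T z)) (pg (lb b σ) d2.h z) (pg (lb b σ) d2.K z)) ∧
      ∀ y, (∀ z : X3, z.1 ∈ Icc (R - 3 / 2 * w) (R + 5 / 2 * w) → ‖z.2‖ ≤ 3 → y ≠ lb b σ z) →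
        d2.h y = d1.h y ∧ d2.K y = d1.K y

/-- INDY: the data on a slice of a double null chart. -/
def INDY : Prop :=
  ∀ (Ψ : R4 → R4) U B D g Xf (J : X → R4) (d : Dat) (j : X3 → X) (z : X3) (t t' : ℝ),
    Lor g D Xf → Pull Ψ (met U) B g D → Fu U B → (t, z.1 - t', z.2) ∈ B →
    g (Ψ (t, z.1 - t', z.2)) (fderiv ℝ Ψ (t, z.1 - t', z.2) nv) (Xf (Ψ (t, z.1 - t', z.2))) < 0 →
    ContDiffAt ℝ ∞ j z → (JG j z).det ≠ 0 →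
    (∀ᶠ x in 𝓝 z, Ψ (t, x.1 - t', x.2) = J (j x)) →
    (IndAt g Xf J d (j z) ↔ P354J.Ind (U (t, z.1 - t', z.2)) (pg j d.h z) (pg j d.K z))

end Vale.Agent.P354KX
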