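import Vale.Agent.P354SM.NDefs
import Vale.Agent.P354LF.Hj
import Vale.Agent.P354SL.Mon
import Vale.Agent.P354RF.RINV

/-!
The perturbation of the exit of the near rays.
-/

open scoped ContDiff Nat
open Set Filter Topology

noncomputable section

namespace Vale.Agent.P354KX

open Vale.Agent.P354n (R4)
open Vale.Agent.P354H (X3)
open Vale.Agent.P354YQ (SA JB JD)
open Vale.Agent.P354SA
open Vale.Agent.P354SM (cr Yz zz Ez EXP)

def uc (A : R4 →L[ℝ] X3) : Y2 := cr (A (ey 0)) (A (ey 1))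
def dc (A : R4 →L[ℝ] X3) : ℝ := (A (ey 0)).2.1 * (A (ey 1)).2.2 - (A (ey 0)).2.2 * (A (ey 1)).2.1
def Ku (C M : ℝ) : Set (R4 →L[ℝ] X3) := {A | ‖A‖ ≤ M ∧ ∀ y : Y2, ‖y‖ ≤ C * ‖(A (0, 0, y)).2‖}

variable {A : R4 →L[ℝ] X3} {C D : ℝ} {Y : R4 → E5} {Z : R4 → X3} {z : R4} {k : ℕ}

theorem ap_y (y : Y2) : A (0, 0, y) = y.1 • A (ey 0) + y.2 • A (ey 1) := by
  rw [← map_smul, ← map_smul, ← map_add]
  simp [ey]

theorem dc_ne (h : ∀ y : Y2, ‖y‖ ≤ C * ‖(A (0, 0, y)).2‖) : dc A ≠ 0 := fun e => by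
  have k : ∀ y : Y2, (A (0, 0, y)).2 = 0 → y = 0 := fun y i =>
    norm_le_zero_iff.1 (by simpa [i] using h y)
  rw [dc] at e
  have a := k ((A (ey 1)).2.2, -(A (ey 0)).2.2) (by
    rw [ap_y]; ext <;> simp <;> linarith)
  have b := k (-(A (ey 1)).2.1, (A (ey 0)).2.1) (by
    rw [ap_y]; ext <;> simp <;> linarith)
  simp only [Prod.mk_eq_zero, neg_eq_zero] at a b
  simpa using k (1, 0) (by rw [ap_y]; ext <;> simp [a.2, b.2])

theorem uc_iff (h : dc A ≠ 0) (p : Y2) :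
    (∀ a, (A (ey a)).1 - dot p (A (ey a)).2 = 0) ↔ p = uc A := by
  rw [Fin.forall_fin_two, dc] at *
  simp only [uc, cr, dot, Prod.ext_iff, eq_div_iff h]
  constructor
  · rintro ⟨a, b⟩
    constructor
    · linear_combination -(A (ey 1)).2.2 * a + (A (ey 0)).2.2 * b
    · linear_combination (A (ey 1)).2.1 * a - (A (ey 0)).2.1 * b
  · rintro ⟨a, b⟩
    constructor <;> refine mul_right_cancel₀ h ?_
    · linear_combination -(A (ey 0)).2.1 * a - (A (ey 0)).2.2 * b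
    · linear_combination -(A (ey 1)).2.1 * a - (A (ey 1)).2.2 * b

theorem uc_jb (k : ℕ) (C M : ℝ) : ∃ B, 0 ≤ B ∧ ∀ A ∈ Ku C M, JB k uc A B := by
  refine P354RF.ri_jb k (O := {A | dc A ≠ 0}) ((isCompact_closedBall 0 M).of_isClosed_subset
    ((isClosed_le continuous_norm continuous_const).inter ?_) fun A h =>
      mem_closedBall_zero_iff.2 h.1) (isOpen_ne_fun (by unfold dc; fun_prop) continuous_const)
    (fun A h => dc_ne h.2) fun A h => ContDiffAt.contDiffWithinAt ?_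
  · show IsClosed {A : R4 →L[ℝ] X3 | ∀ y : Y2, ‖y‖ ≤ C * ‖(A (0, 0, y)).2‖}
    rw [Set.ofPred_forall]
    exact isClosed_iInter fun y => isClosed_le continuous_const (by fun_prop)
  · have c : ContDiffAt ℝ ∞ dc A := by unfold dc; fun_prop
    exact (ContDiffAt.div (by fun_prop) c h).prodMk (ContDiffAt.div (by fun_prop) c h)

theorem ph_fd' (s : SA (zz Y) z) (w : R4) : fderiv ℝ (Ph Y) z w = (w.1, fderiv ℝ (zz Y) z w) :=
  DFunLike.congr_fun (hasFDerivAt_fst.prodMk s.diff.hasFDerivAt).fderiv w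

theorem kv_eq (s : SA (zz Y) z) (w : R4) :
    kv Y w z = (fderiv ℝ (zz Y) z w).1 - dot (Y z).2.2 (fderiv ℝ (zz Y) z w).2 := by
  rw [kv, ph_fd' s, P354LF.xp_ap]

theorem dη_eq (s : SA (zz Y) z) (y : Y2) : dη Y z y = (fderiv ℝ (zz Y) z (0, 0, y)).2 := by
  rw [dη, ph_fd' s]

theorem jb_fst {V W : Type} [NormedAddCommGroup V] [NormedSpace ℝ V] [NormedAddCommGroup W]
    [NormedSpace ℝ W] {f : R4 → V × W} (h : JB k f z C) :
    JB k (fun x => (f x).1) z C ∧ JB k (fun x => (f x).2) z C :=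
  ⟨(h.clm (.fst ℝ V W)).mono (mul_le_of_le_one_left h.nonneg (ContinuousLinearMap.norm_fst_le ..)),
    (h.clm (.snd ℝ V W)).mono (mul_le_of_le_one_left h.nonneg (ContinuousLinearMap.norm_snd_le ..))⟩

theorem jd_yz (h : JD (k + 1) Z z D) (hD : 1 ≤ D) (u : JB k uc (fderiv ℝ Z z) C) :
    JD k (Yz Z) z (D + k ! * C * D ^ k) := by
  have a := u.comp h.fderiv.jd hD
  obtain ⟨b, c⟩ := jb_fst ((h.ord k.le_succ).sub_const (by linarith))
  have e : D ≤ D + k ! * C * D ^ k := le_add_of_nonneg_right a.nonneg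
  exact ((JD.of_sub _ b.jd).mono e).prod (((JD.of_sub _ c.jd).mono e).prod
    (a.jd.mono (le_add_of_nonneg_left (by linarith))))

theorem sp_open (s2 : ℝ) : IsOpen (P354SM.Sp s2) :=
  ((P354SL.wd_open _ _ _).preimage continuous_snd).inter
    (isOpen_lt (continuous_fst.sub continuous_const).abs continuous_const)

theorem pole_le {c ν : ℝ} {x y : Y2} (h : 0 < c) (k : c ≤ 1 - y.1 ^ 2 - y.2 ^ 2)
    (a : -ν ≤ (x - y).1 ∧ (x - y).1 ≤ ν) (b : -ν ≤ (x - y).2 ∧ (x - y).2 ≤ ν) (e : ν ≤ 1) :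
    c - 6 * ν ≤ 1 - x.1 ^ 2 - x.2 ^ 2 := by
  have sq : ∀ u v : ℝ, v ^ 2 ≤ 1 → -ν ≤ u - v ∧ u - v ≤ ν → u ^ 2 ≤ v ^ 2 + 3 * ν :=
    fun u v i j => by nlinarith [abs_le.1 ((sq_le_one_iff_abs_le_one v).1 i)]
  linarith [sq _ _ (by nlinarith) a, sq _ _ (by nlinarith) b]

theorem exp_ok : EXP := by
  intro C1 h1 C2
  obtain ⟨M, hM, m2⟩ : ∃ M, 1 ≤ M ∧ C2 + 1 ≤ M :=
    ⟨|C2| + 1, by linarith [abs_nonneg C2], by linarith [le_abs_self C2]⟩
  choose Cu c0 cu using fun k => uc_jb k (2 * C1) M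
  obtain ⟨L, hL, lip⟩ := P354YQ.lip 1 M hM
  refine ⟨M + 8 ! * Cu 8 * M ^ 8, hM.trans (le_add_of_nonneg_right (by have := c0 8; positivity)),
    fun n B => ?_⟩
  obtain ⟨B', hB, b2⟩ : ∃ B', 1 ≤ B' ∧ B + 1 ≤ B' :=
    ⟨|B| + 1, by linarith [abs_nonneg B], by linarith [le_abs_self B]⟩
  obtain ⟨Q, hQ⟩ : ∃ Q, Q = L * Cu 2 + 1 := ⟨_, rfl⟩
  have q1 : 1 ≤ Q := hQ ▸ le_add_of_nonneg_left (by have := c0 2; positivity)
  obtain ⟨μ, μ0, e⟩ : ∃ μ > 0, (1 + 8 * M * Q + 2 * C1) * μ = (2 * C1)⁻¹ :=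
    ⟨(2 * C1)⁻¹ / (1 + 8 * M * Q + 2 * C1), by positivity, mul_div_cancel₀ _ (by positivity)⟩
  have i1 : (2 * C1)⁻¹ ≤ 1 / 2 := by
    rw [one_div]
    exact inv_anti₀ two_pos (by linarith)
  have i2 : C1⁻¹ = 2 * (2 * C1)⁻¹ := by field_simp
  have p1 : 0 ≤ C1 * μ := by positivity
  have p2 : Q * μ ≤ M * Q * μ := by gcongr; exact le_mul_of_one_le_left (by linarith) hM
  have p3 : μ ≤ Q * μ := le_mul_of_one_le_left μ0.le q1
  refine ⟨B' + n ! * Cu n * B' ^ n,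
    hB.trans (le_add_of_nonneg_right (by have := c0 n; positivity)), μ, μ0,
    fun r2 s2 Y0 Z ez h => ?_⟩
  have jz : ∀ {k D D'}, ∀ {z}, JD k (zz Y0) z D → JB k (fun x => Z x - zz Y0 x) z μ → D + 1 ≤ D' →
      JD k Z z D' := fun a b c => ((a.add b.jd).congr (.of_forall fun _ => by simp)).mono
        (by linarith)
  have dd : ∀ z ∈ P354SM.Sp s2, ‖fderiv ℝ Z z - fderiv ℝ (zz Y0) z‖ ≤ μ := fun z hz => by
    obtain ⟨a, -, c, -⟩ := h z hz
    rw [← fderiv_fun_sub (jz a c m2).sm.diff a.sm.diff]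
    exact c.jd.fderiv.zero
  have ku : ∀ z ∈ P354SM.Sp s2, ∀ A, ‖A - fderiv ℝ (zz Y0) z‖ ≤ μ → A ∈ Ku (2 * C1) M :=
    fun z hz A i => ⟨by linarith [norm_le_insert' A (fderiv ℝ (zz Y0) z), (h z hz).1.fderiv.zero],
      fun y => by
        have a := (ez z hz).2.2.2.2.2.1 y
        rw [dη_eq (h z hz).1.sm] at a
        have b : ‖(A (0, 0, y)).2 - (fderiv ℝ (zz Y0) z (0, 0, y)).2‖ ≤ μ * ‖y‖ :=
          ((norm_snd_le ((A - fderiv ℝ (zz Y0) z) (0, 0, y))).trans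
            (ContinuousLinearMap.le_of_opNorm_le _ i _)).trans_eq (by simp)
        have c := mul_le_mul_of_nonneg_left ((norm_le_insert _ _).trans (add_le_add le_rfl b))
          (show 0 ≤ C1 by linarith)
        nlinarith [norm_nonneg y]⟩
  have k0 := fun z hz => ku z hz _ (dd z hz)
  have y0 : ∀ z ∈ P354SM.Sp s2, Y0 z = Yz (zz Y0) z := fun z hz =>
    Prod.ext rfl (Prod.ext rfl ((uc_iff (dc_ne (ku z hz _ (by simpa using μ0.le)).2) _).1 fun a =>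
      kv_eq (h z hz).1.sm _ ▸ (ez z hz).2.1 a))
  have j8 := fun z hz => jd_yz (jz (h z hz).1 (h z hz).2.2.1 m2) hM (cu 8 _ (k0 z hz))
  refine ⟨fun z hz => ?_, fun z hz => ⟨j8 z hz,
    jd_yz (jz (h z hz).2.1 (h z hz).2.2.2 b2) hB (cu n _ (k0 z hz))⟩⟩
  obtain ⟨a, -, c, -⟩ := h z hz
  obtain ⟨-, -, e3, e4, e5, -, e7, e9, e8⟩ := ez z hz
  have sZ : SA (zz (Yz Z)) z := (jz a c m2).sm
  have u := lip _ _ _ uc (fderiv ℝ Z) (fderiv ℝ (zz Y0)) z (Cu 2) μ (fun p hp => cu 2 p (ku z hz p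
      ((norm_sub_le_of_mem_segment (by rwa [segment_symm] at hp)).trans (dd z hz))))
    ((jz a c m2).fderiv.jd.ord (by omega)) ((a.mono (by linarith)).fderiv.jd.ord (by omega))
    ((c.jd.fderiv.ord (by omega)).congr (by
      filter_upwards [sZ.ev, a.sm.ev] with x i j using (fderiv_fun_sub i.diff j.diff).symm))
  obtain ⟨c1, c2⟩ := jb_fst ((c.ord (show 1 ≤ 9 by omega)).mono p3)
  have v : JB 1 (fun x => Yz Z x - Y0 x) z (Q * μ) :=
    (c1.prod (c2.prod (u.mono (by rw [hQ]; linarith)))).congr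
      (((sp_open s2).eventually_mem hz).mono fun x i => by beta_reduce; rw [y0 x i]; rfl)
  have v0 := v.zero
  have v1 : |(Yz Z z).1 - (Y0 z).1| ≤ Q * μ := (norm_fst_le (Yz Z z - Y0 z)).trans v0
  have v2 : ‖(Yz Z z).2 - (Y0 z).2‖ ≤ Q * μ := (norm_snd_le (Yz Z z - Y0 z)).trans v0
  have v3 : ‖(Yz Z z).2.2 - (Y0 z).2.2‖ ≤ Q * μ := (norm_snd_le ((Yz Z z).2 - (Y0 z).2)).trans v2
  refine ⟨(j8 z hz).sm, fun i => kv_eq sZ _ ▸ (uc_iff (dc_ne (k0 z hz).2) _).2 rfl i, ?_,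
    by linarith [abs_sub_le (Yz Z z).1 (Y0 z).1 r2], by
      linarith [norm_le_insert' (Yz Z z).2 (Y0 z).2], fun y => dη_eq sZ y ▸ (k0 z hz).2 y, ?_,
    fun i => ?_, fun y hy => ?_⟩
  · rw [kv_eq a.sm] at e3
    rw [kv_eq sZ]
    have n1 : ‖e1‖ = 1 := by simp [e1]
    have w0 : ‖fderiv ℝ Z z e1 - fderiv ℝ (zz Y0) z e1‖ ≤ μ :=
      (ContinuousLinearMap.le_of_opNorm_le _ (dd z hz) e1).trans_eq (by rw [n1, mul_one])
    have w1 : |(fderiv ℝ Z z e1).1 - (fderiv ℝ (zz Y0) z e1).1| ≤ μ := (norm_fst_le _).trans w0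
    have w2 := (P354SL.dot_le (Y0 z).2.2 _).trans (mul_le_mul (mul_le_mul_of_nonneg_left
      ((norm_snd_le _).trans e5) zero_le_two) ((norm_snd_le _).trans w0) (norm_nonneg _)
        (by linarith))
    have w3 := (P354SL.dot_le _ (fderiv ℝ Z z e1).2).trans (mul_le_mul (mul_le_mul_of_nonneg_left
      v3 zero_le_two) ((norm_snd_le _).trans ((ContinuousLinearMap.le_of_opNorm_le _
        (k0 z hz).1 e1).trans_eq (by rw [n1, mul_one]))) (norm_nonneg _) (by linarith))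
    have w4 : dot (Yz Z z).2.2 (fderiv ℝ Z z e1).2 - dot (Y0 z).2.2 (fderiv ℝ (zz Y0) z e1).2 =
        dot ((Yz Z z).2.2 - (Y0 z).2.2) (fderiv ℝ Z z e1).2 +
          dot (Y0 z).2.2 (fderiv ℝ Z z e1 - fderiv ℝ (zz Y0) z e1).2 := by
      simp only [dot, Prod.fst_sub, Prod.snd_sub]
      ring
    show (fderiv ℝ Z z e1).1 - dot (Yz Z z).2.2 (fderiv ℝ Z z e1).2 ∈ _
    constructor <;> linarith [e3.1, e3.2, abs_le.1 w1, abs_le.1 w2, abs_le.1 w3]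
  · have s := (v.comp (z := z.2) (f := fun x => (z.1, x))
      (((JD.const _).mono zero_le_one).prod JD.id) le_rfl).jd
    exact ((e7.add s).congr (.of_forall fun _ => by simp)).mono (by simp; linarith)
  · have v4 : ‖(Yz Z z).2.1 - (Y0 z).2.1‖ ≤ Q * μ :=
      (norm_fst_le ((Yz Z z).2 - (Y0 z).2)).trans v2
    have v5 := abs_le.1 ((norm_fst_le ((Yz Z z).2.1 - (Y0 z).2.1)).trans v4)
    have v6 := abs_le.1 ((norm_snd_le ((Yz Z z).2.1 - (Y0 z).2.1)).trans v4)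
    linarith [pole_le (inv_pos.2 (one_pos.trans_le h1)) (e9 i) v5 v6 (by linarith)]
  · have m := Convex.norm_image_sub_le_of_norm_fderiv_le (𝕜 := ℝ) (f := fun x => Z x - zz Y0 x)
      (s := {x ∈ P354SM.Sp s2 | True}) (C := μ) (fun x i => (h x i.1).2.2.1.sm.diff)
      (fun x i => (h x i.1).2.2.1.jd.fderiv.zero) (by
        rw [sep_true]
        exact (((convex_Ioo _ _).linear_preimage (.fst ℝ _ _)).inter ((by
          rw [← ball_zero_eq]; exact convex_ball _ _ : Convex ℝ {y : Y2 | ‖y‖ < 15 / 2 + 2 / 2}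
            ).linear_preimage (.snd ℝ _ _))).linear_preimage (.snd ℝ _ _) |>.inter
          ((convex_ball s2 1).linear_preimage (.fst ℝ _ _))) ⟨hy, trivial⟩ ⟨hz, trivial⟩
    have m1 : ‖z - (z.1, z.2.1, y)‖ = ‖z.2.2 - y‖ := by simp [Prod.norm_def]
    have m3 := (norm_snd_le _).trans m
    have m4 : (Y0 z).2.1 - (Y0 (z.1, z.2.1, y)).2.1 = (Z z).2 - (Z (z.1, z.2.1, y)).2 -
        (Z z - zz Y0 z - (Z (z.1, z.2.1, y) - zz Y0 (z.1, z.2.1, y))).2 := by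
      simp only [zz, Prod.snd_sub]
      abel
    have m5 := mul_le_mul_of_nonneg_left ((norm_sub_le ((Z z).2 - (Z (z.1, z.2.1, y)).2) _).trans
      (add_le_add le_rfl m3)) (show 0 ≤ C1 by linarith)
    have m6 := e8 y hy
    rw [← m4, m1] at m5
    show _ ≤ 2 * C1 * ‖(Z z).2 - (Z (z.1, z.2.1, y)).2‖
    nlinarith [norm_nonneg (z.2.2 - y)]

end Vale.Agent.P354KX
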