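import Vale.Agent.P354KX.Kb
import Vale.Agent.P354YV.KcD

/-!
The function v on the true initial slice.
-/

open scoped ContDiff
open Set Filter Topology

noncomputable section

namespace Vale.Agent.P354KX

open Vale.Agent.P354H (X3)
open Vale.Agent.P354I (X)
open Vale.Agent.P354XE (pt xs xs_pt kr)
open Vale.Agent.P354XB (Win)
open Vale.Agent.P354XP (Hull)

theorem hull_anti {l l' : ℝ} {C : Set X} (h : l ≤ l') : Hull l' C ⊆ Hull l C :=
  fun _ ⟨x, hx, k⟩ => ⟨x, hx, le_trans (by gcongr) k⟩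

theorem hs (same : SAME) (mxx : MX) (hul : HUL) : P354YV.HS := by
  intro P d T J b n R w c c0 T' δ G ρ U Ψ jj hM h1 _ h hc k
  obtain ⟨m1, m2, -⟩ := mxx P.M P.a b hM
  have sb := fun s => (k s).1
  have hw := (sb true).pos.2.2
  have dm := fun s z (hz : z ∈ Win R w 6) => win_dm (sb s).pos.1 (sb s).pos.2.1 hz
  have ne : ∀ s, ∀ z ∈ Win R w 6, jj s z ≠ 0 := fun s z hz =>
    norm_pos_iff.1 ((k s).2.2.1.trans_le ((k s).2.2.2.1.loc z hz).1)
  have m : 0 < min (δ true) (δ false) := lt_min (sb _).pos.2.1 (sb _).pos.2.1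
  have q2 : ∀ s, min (δ true) (δ false) / 2 < δ s := fun s => (half_lt_self m).trans_le (by
    cases s
    exacts [min_le_right _ _, min_le_left _ _])
  obtain ⟨δ2, -, two⟩ := same T.g T.D T.Xf J b T' δ R w U Ψ _ h.lor (fun s => ⟨sb s, fun z hz => by
    rw [(sb s).bot z hz]
    refine tm_bot h ⟨by rw [xs_pt]; exact (m2 _ (ne s z hz)).1, le_rfl, h1.trans_le ?_⟩ rfl
    simp only [kr, pt]
    nlinarith [sq_nonneg (P354XE.kx P.M P.a (0, (mx P.M P.a b ∘ jj s) z 0,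
      (mx P.M P.a b ∘ jj s) z 1, (mx P.M P.a b ∘ jj s) z 2))]⟩) _ (half_pos m) q2
  obtain ⟨f, f1, f2, f3, -, f5⟩ := hul n R w c (c0 / 4) G ρ jj hw (by positivity) fun s =>
    ⟨(k s).2.1, (k s).2.2.1, (k s).2.2.2.1, (k s).2.2.2.2, fun z hz => ⟨fun i => by
      have a := (sb s).pole _ (dm s z hz) le_rfl i
      obtain ⟨e, e0, e1⟩ := (m2 _ (ne s z hz)).2.2
      rw [(sb s).bot z hz] at a
      replace a : 0 < P354E.sg s * mx P.M P.a b (jj s z) 2 := a
      rw [e1, mul_left_comm] at a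
      exact (pos_iff_pos_of_mul_pos a).1 e0, fun i => by
      obtain ⟨⟨t, z'⟩, a1, a2, a3, a4⟩ := two.cov s _ (dm s z hz) le_rfl (.inl (sb s).pos.1.le) i
      have a5 : t + z'.1 = 0 + z.1 := a2
      have a6 : ‖z'.2‖ ≤ 2 := a3
      obtain rfl : t = 0 := a1.1.antisymm' (not_lt.1 fun j => by
        have := (sb !s).up (t, z') ⟨⟨by linarith [(sb !s).pos.2.1], by linarith [a1.2, q2 !s]⟩,
          show t + z'.1 ∈ _ by rw [a5, zero_add]; exact hz.1, by linarith⟩ j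
        rw [a4, (sb s).bot z hz] at this
        exact lt_irrefl _ this)
      have a7 : z' ∈ Win R w 6 := ⟨by rw [add_left_cancel a5]; exact hz.1, by linarith⟩
      rw [(sb s).bot z hz, (sb !s).bot z' a7] at a4
      have a8 := congrArg (fun x => mx P.M P.a b (xs x)) a4
      simp only [xs_pt, Function.comp, (m2 _ (ne _ _ a7)).2.1, (m2 _ (ne _ _ hz)).2.1] at a8
      exact ⟨z', add_left_cancel a5, a6, a8⟩⟩⟩
  have e4 : 4 * (c0 / 4) = c0 := by ring
  simp only [e4] at f5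
  have wi : ∀ {z : X3}, z.1 ∈ Ioc (R - w) (R + 5 / 2 * w) → ‖z.2‖ < 2 → z ∈ Win R w 6 :=
    fun a1 a2 => ⟨⟨by linarith [a1.1], by linarith [a1.2]⟩, by linarith⟩
  refine ⟨f ∘ mx P.M P.a b, f1.comp m1.continuousOn fun y hy => (m2 y hy).1, fun s z hz => ?_,
    fun y hy i => f3 _ (m2 y hy).1 fun s ⟨z, hz, e⟩ => i s ⟨z, hz, ?_⟩, fun s z hz i j => ?_,
    fun s y hy i j => ?_⟩
  · simp only [Function.comp, (m2 _ (ne s z hz)).2.1, f2 s z hz]
  · simp only [Function.comp, e, (m2 y hy).2.1]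
  · rcases i with i | i
    · obtain ⟨z', a1, a2, a3⟩ := f5 s _ j (by
        rw [f2 s z hz]
        exact max_le (by linarith) ((min_le_left _ _).trans (by linarith)))
      rw [← (k s).2.2.2.1.inj hz (wi a1 a2) a3] at a1
      exact a1.1.not_ge i
    · exact (k s).2.2.2.2.far z hz i (hull_anti (by nlinarith [(k s).2.2.1]) j)
  · obtain ⟨z, a1, a2, a3⟩ := f5 s _ j i
    refine ⟨(0, z), ⟨⟨by simp, by simpa using (sb s).pos.1.le⟩, show 0 + z.1 ∈ _ from
      ⟨by linarith [a1.1], by linarith [a1.2]⟩, show ‖z.2‖ ≤ 4 by linarith⟩, ?_⟩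
    rw [(sb s).bot z (wi a1 a2), Function.comp, ← a3, (m2 y hy).2.1]

end Vale.Agent.P354KX
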