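import Vale.Agent.P354KX.Kr
import Vale.Agent.P354GL.Glue
import Vale.Agent.P354LN.Vh

/-!
The reference solution of the kick.
-/

open scoped ContDiff
open Set Filter Topology

noncomputable section

namespace Vale.Agent.P354KX

open Vale.Agent.P354n (R4)
open Vale.Agent.P354H (X3)
open Vale.Agent.P354I (X Dat)
open Vale.Agent.P354XE (Tw pt xs D0 kr Lor Sl Ind Tm)
open Vale.Agent.P354XU (IndAt)
open Vale.Agent.P354XB (Win)
open Vale.Agent.P354YX (pT)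
open Vale.Agent.P354EN (Dm)
open Vale.Agent.P354YM

theorem win_open (R w r : ℝ) : IsOpen (Win R w r) :=
  (isOpen_Ioo.preimage continuous_fst).inter (isOpen_lt continuous_snd.norm continuous_const)

theorem win_dm {T δ R w : ℝ} (hT : 0 < T) (hδ : 0 < δ) {z : X3} (hz : z ∈ Win R w 6) :
    ((0, z) : R4) ∈ Dm T δ R w :=
  ⟨⟨by linarith, by linarith⟩, (zero_add z.1).symm ▸ hz.1, hz.2⟩

theorem cb_dm {T δ δ' R w : ℝ} (h : δ' < δ) (hw : 0 < w) : Cb T δ' R w ⊆ Dm T δ R w :=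
  fun p hp => ⟨⟨by linarith [hp.1.1], by linarith [hp.1.2]⟩,
    ⟨by linarith [hp.2.1.1, show vv p = p.1 + p.2.1 from rfl],
      by linarith [hp.2.1.2, show vv p = p.1 + p.2.1 from rfl]⟩, by linarith [hp.2.2]⟩

theorem sk_cb {T δ R w : ℝ} (hw : 0 < w) : Sk T δ R w ⊆ Cb T δ R w := fun p hp =>
  ⟨hp.1, ⟨by linarith [hp.2.1.1], by linarith [hp.2.1.2]⟩, by linarith [hp.2.2]⟩

/-- The initial slice is spacelike at the bottom of a slab. -/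
theorem tm_bot {P : Pm} {d : Dat} {T : Tg} (h : T.Is P d) {x : R4} (hx : x ∈ D0 P.M P.a P.r1)
    (h0 : x.1 = 0) : Tm T.g T.Xf (fun x => x.1) x :=
  ⟨contDiffAt_fst, by rw [fderiv_fst]; exact (h.box x ⟨hx, .inl h0⟩).1,
    by rw [fderiv_fst]; exact (h.box x ⟨hx, .inl h0⟩).2⟩

theorem kb (same : SAME) (glue : GLUE) (indy : INDY) (kl : KL) : KB := by
  intro P r0 r2 r3 k0 T J d d' d1 d2 b σ R w T' δ U Ψ j δ' U' f ρ Z A x2 _ _ _ _ h sl i1 ln cA sA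
    lo hZ k
  have hw := (k.sb σ).pos.2.2
  have hT := fun s => (k.sb s).pos.1
  have hδ := fun s => (k.sb s).pos.2.1
  obtain ⟨δ1, p1, q1, q2⟩ : ∃ δ1 > 0, δ1 < δ' ∧ ∀ s, δ1 < δ s := by
    have m : 0 < min δ' (min (δ true) (δ false)) := lt_min k.dl.1 (lt_min (hδ _) (hδ _))
    refine ⟨_, half_pos m, (half_lt_self m).trans_le (min_le_left _ _), fun s =>
      (half_lt_self m).trans_le ((min_le_right _ _).trans ?_)⟩
    cases s
    exacts [min_le_right _ _, min_le_left _ _]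
  obtain ⟨δ2, p2, two⟩ := same T.g T.D T.Xf J b T' δ R w U Ψ j h.lor (fun s => ⟨k.sb s, fun z hz =>
    tm_bot h (k.loc s _ (win_dm (hT s) (hδ s) hz) le_rfl).1 (by rw [(k.sb s).bot z hz]; rfl)⟩)
    δ1 p1 q2
  have ct : ∀ s, ContinuousOn (Ψ s) (Cb (T' s) δ1 R w) := fun s =>
    (k.sb s).pull.smooth.continuousOn.mono (cb_dm (q2 s) hw)
  have cC : ∀ s, IsCompact (Ψ s '' (Cb (T' s) δ1 R w ∩ {p | 0 ≤ p.1})) := fun s =>
    ((P354LN.cb_cpt _ _ _ _).inter_right (isClosed_le continuous_const continuous_fst)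
      ).image_of_continuousOn ((ct s).mono inter_subset_left)
  obtain ⟨W, τ, V, w1, w2, w3, w4⟩ := ln (A ∪ J '' Rc (sd b (R + 9 / 4 * w) (max x2 (Z !b))) ∪
      ⋃ s, Ψ s '' (Cb (T' s) δ1 R w ∩ {p | 0 ≤ p.1}))
    ((cA.union ((rc_cpt _).image_of_continuousOn (sl.sm.continuousOn.mono rc_ne))).union
      (isCompact_iUnion cC)) (by
        rintro x ((hx | ⟨y, hy, rfl⟩) | hx)
        · exact sA x hx
        · have m := (sl.mem y hy.1).1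
          exact ⟨m, not_lt.1 fun i => (sl.pos _ m i).ne' ((sl.zero _ m).2 ⟨y, hy.1, rfl⟩)⟩
        · obtain ⟨s, p, hp, rfl⟩ := mem_iUnion.1 hx
          exact k.loc s p (cb_dm (q2 s) hw hp.1) hp.2)
  have l2 : δ2 < δ' := p2.2.trans_lt q1
  obtain ⟨g', X', g1, g2, g3, g4⟩ := glue T.g T.D T.Xf J b σ (T' σ) (δ σ) R w (U σ) (Ψ σ) (j σ) U'
    δ' δ2 h.lor (k.sb σ) p2.1 l2 k.dl.2 k.fu k.eq
  have sB : Bk (T' σ) δ2 R w ⊆ Bk (T' σ) δ' R w := fun p hp =>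
    ⟨⟨by linarith [hp.1.1], by linarith [hp.1.2]⟩, hp.2⟩
  have cS : IsClosed (Ψ σ '' Sk (T' σ) δ2 R w) := ((P354GL.sk_compact _ _ _ _).image_of_continuousOn
    ((k.sb σ).pull.smooth.continuousOn.mono ((sk_cb hw).trans
      (cb_dm (p2.2.trans_lt (q2 σ)) hw)))).isClosed
  have ev : ∀ x ∉ Ψ σ '' Sk (T' σ) δ2 R w, ∀ᶠ z in 𝓝 x, g' z = T.g z ∧ X' z = T.Xf z :=
    fun x hx => (cS.isOpen_compl.eventually_mem hx).mono g4
  obtain ⟨W', τ', V', c1, c2, c3, c4, c5, c6, c7⟩ := kl ⟨P.M, P.a, P.r1, r2, r3, R, w, δ1, δ2, δ',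
    V, max x2 (Z !b), T.g, g', T.D, W, A, T.Xf, X', ρ, τ, J, b, σ, T', δ, U, U', Ψ, j, f, d, d'⟩
    ⟨h.lor, sl, fun s => ⟨k.sb s, q2 s⟩, ⟨p2, l2, k.dl.2⟩, two, w2, ⟨w1, fun x hx => (w4 x hx).1⟩,
      fun s p hp i => w3 (.inr (mem_iUnion.2 ⟨s, p, ⟨hp, i⟩, rfl⟩)),
      fun y hy => w3 (.inl (.inr ⟨y, hy, rfl⟩)), fun x hx => ⟨w3 (.inl (.inl hx)), by
        obtain ⟨y, hy, i⟩ := lo x hx
        refine ⟨y, ⟨hy.1, fun s => (hy.2 s).trans ?_⟩, i⟩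
        show Z s ≤ sd b (R - 3 * w) (max x2 (Z !b)) s
        unfold sd
        split_ifs with e
        · exact e ▸ hZ
        · exact Bool.eq_not_of_ne e ▸ le_max_right _ _⟩,
      k.f1, k.f2, k.f3, k.fu, k.eq, g1, g2, g3, g4, k.pd, fun z hz => by
        obtain ⟨a1, a2, a3⟩ := k.bot z (sB hz)
        have e : ∀ x : X3, ((0, x.1 - 0, x.2) : R4) = (0, x) := fun x => by rw [sub_zero]
        have hz' : ((0, z) : R4) ∈ Bk (T' σ) δ2 R w := hz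
        have z1 : 0 + z.1 ∈ Ioo (R - 2 * w) (R + 5 / 2 * w) := hz'.2.1
        have z2 : ‖z.2‖ < 9 / 2 := hz'.2.2
        refine (indy (Ψ σ) U' _ _ g' X' (pt 0) d' (j σ) z 0 0 g1 g2 (k.fu.mono sB) (e z ▸ hz')
          (e z ▸ g3 _ hz') a1 a2 ?_).2 (e z ▸ a3)
        filter_upwards [(win_open R w 6).eventually_mem (show z ∈ Win R w 6 from
          ⟨⟨by linarith [z1.1], by linarith [z1.2]⟩, by linarith⟩)] with x hx
        rw [e, (k.sb σ).bot x hx],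
      fun y y0 i n => k.i2 y y0 i fun ⟨p, hp, e⟩ => n ⟨p, ⟨⟨by linarith [hp.1.1, p2.1],
        by linarith [hp.1.2, p2.1]⟩, hp.2⟩, e⟩⟩
  have sZ : Rc (sd b (R + 9 / 4 * w) x2) ⊆ Rc (sd b (R + 9 / 4 * w) (max x2 (Z !b))) :=
    fun y hy => ⟨hy.1, fun s => (hy.2 s).trans (by unfold sd; split_ifs <;> simp)⟩
  refine ⟨W', g', X', τ', V', ⟨c1, k.cls δ2 l2.le _ g' X' _ g1 g2 g3 fun x hx =>
    (c3 x hx).imp_left (ev x), fun x hx => w4 x (c2 hx)⟩, c4, fun y hy => c5 (sZ hy),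
    fun x hx => ⟨ev x (c6 x hx).1, (c6 x hx).2⟩, fun y hy => ?_⟩
  by_cases m : J y ∈ Ψ σ '' Sk (T' σ) δ2 R w
  · obtain ⟨z, z1, z2, rfl⟩ := c7 y (sZ (rg_rc hy)) m
    have hz : pT (T' σ) z ∈ Bk (T' σ) δ2 R w :=
      ⟨⟨show -δ2 < T' σ by linarith [hT σ, p2.1], show T' σ < T' σ + δ2 by linarith [p2.1]⟩,
        show T' σ + (z.1 - T' σ) ∈ _ by rw [add_sub_cancel]; exact z1.1, z1.2⟩
    refine (indy (Ψ σ) U' _ _ g' X' J d2 (lb b σ) z (T' σ) (T' σ) g1 g2 (k.fu.mono sB) hz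
      (g3 _ hz) (lb_sm b σ).contDiffAt (lb_det b σ z) ?_).2 (k.top z z1 z2)
    filter_upwards [(win_open R w 6).eventually_mem (show z ∈ Win R w 6 from
      ⟨⟨by linarith [z1.1.1], by linarith [z1.1.2]⟩, by linarith [z1.2]⟩)] with x hx
    exact (k.sb σ).top x hx
  · refine indAt_of (i1 y hy.1) (ev _ m) (k.o2 y fun z z1 z2 e => m ⟨pT (T' σ) z,
      ⟨⟨show -δ2 ≤ T' σ by linarith [hT σ, p2.1], show T' σ ≤ T' σ + δ2 by linarith [p2.1]⟩,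
        show T' σ + (z.1 - T' σ) ∈ _ from ⟨by linarith [z1.1], by linarith [z1.2]⟩,
        show ‖z.2‖ ≤ 4 by linarith⟩, ?_⟩)
    rw [e]
    exact (k.sb σ).top z ⟨⟨by linarith [z1.1], by linarith [z1.2]⟩, by linarith⟩

end Vale.Agent.P354KX
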