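import Vale.Agent.P354KX.Lem
import Vale.Agent.P354YM.KDefs

/-!
The kick without the constants.
-/

open scoped ContDiff
open Set Filter Topology

noncomputable section

namespace Vale.Agent.P354KX

open Vale.Agent.P354n (R4)
open Vale.Agent.P354H (X3)
open Vale.Agent.P354C (Ix met)
open Vale.Agent.P354I (X Dat)
open Vale.Agent.P354J (PDy)
open Vale.Agent.P354R (Pull)
open Vale.Agent.P354GT (Fu)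
open Vale.Agent.P354PU (JG pg)
open Vale.Agent.P354XE (Tw pt xs D0 kr Lor Sl Ind)
open Vale.Agent.P354XU (IndAt)
open Vale.Agent.P354XB (Win)
open Vale.Agent.P354YX (pT)
open Vale.Agent.P354EN (Dm)
open Vale.Agent.P354YM

/-- The two slabs and the kicked solution. -/
structure Kr (P : Pm) (r2 : ℝ) (k0 : ℕ) (T : Tg) (J : X → R4) (d d' d1 d2 : Dat) (b σ : Bool)
    (R w : ℝ) (T' δ : Bool → ℝ) (U : Bool → R4 → Ix → ℝ) (Ψ : Bool → R4 → R4)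
    (j : Bool → X3 → X) (δ' : ℝ) (U' : R4 → Ix → ℝ) (f : X → ℝ) : Prop where
  sb : ∀ s, Sb T.g T.D T.Xf J b s (T' s) (δ s) R w (U s) (Ψ s) (j s)
  loc : ∀ s, ∀ p ∈ Dm (T' s) (δ s) R w, 0 ≤ p.1 →
    Ψ s p ∈ D0 P.M P.a P.r1 ∧ r2 ≤ kr P.M P.a (Ψ s p)
  f1 : ContinuousOn f {0}ᶜ
  f2 : ∀ s, ∀ z ∈ Win R w 6, f (j s z) = cl R w z.1
  f3 : ∀ y ≠ 0, (∀ s, y ∉ j s '' Nz R w) → f y = R - 11 / 4 * w ∨ f y = R + 15 / 4 * w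
  dl : δ' ∈ Ioc 0 (δ σ)
  fu : Fu U' (Bk (T' σ) δ' R w)
  eq : ∀ p ∈ Bk (T' σ) δ' R w, vv p ≤ R - 3 / 2 * w ∨ 3 ≤ ‖p.2.2‖ → U' p = U σ p
  pd : PDy d'
  bot : ∀ z, (0, z) ∈ Bk (T' σ) δ' R w → ContDiffAt ℝ ∞ (j σ) z ∧ (JG (j σ) z).det ≠ 0 ∧
    P354J.Ind (U' (0, z)) (pg (j σ) d'.h z) (pg (j σ) d'.K z)
  i2 : ∀ y ≠ 0, f y ≤ R + 5 / 2 * w → pt 0 y ∉ Ψ σ '' Sk (T' σ) 0 R w →
    d'.h y = d.h y ∧ d'.K y = d.K y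
  top : ∀ z ∈ P354YX.Tw R w, z.1 ≤ R + 9 / 4 * w →
    P354J.Ind (U' (pT (T' σ) z)) (pg (lb b σ) d2.h z) (pg (lb b σ) d2.K z)
  o2 : ∀ y, (∀ z : X3, z.1 ∈ Icc (R - 3 / 2 * w) (R + 5 / 2 * w) → ‖z.2‖ ≤ 3 → y ≠ lb b σ z) →
    d2.h y = d1.h y ∧ d2.K y = d1.K y
  cls : ∀ δ3 ≤ δ', ∀ W g' X' K, Lor g' W X' → Pull (Ψ σ) (met U') (Bk (T' σ) δ3 R w) g' W →
    (∀ p ∈ Bk (T' σ) δ3 R w, g' (Ψ σ p) (fderiv ℝ (Ψ σ) p nv) (X' (Ψ σ p)) < 0) →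
    (∀ x ∈ K, (∀ᶠ z in 𝓝 x, g' z = T.g z ∧ X' z = T.Xf z) ∨
      ∃ p ∈ Bk (T' σ) δ3 R w, 0 ≤ p.1 ∧ x = Ψ σ p) → Cls (P.n k0) K g' X' T.q

/-- KB: the reference solution. -/
def KB : Prop :=
  ∀ (P : Pm) r0 r2 r3 k0 (T : Tg) J d d' d1 d2 b σ R w T' δ U Ψ j δ' U' f ρ Z A x2,
    P.a ≠ 0 → |P.a| < P.M → P.r1 < P354I.rp P.M P.a → 0 < P.θ → T.Is P d →
    Sl P.M P.a P.r1 r2 r3 T.g T.Xf ρ J → Ind T.g T.Xf J d1 →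
    (∀ A, IsCompact A → (∀ p ∈ A, p ∈ D0 P.M P.a P.r1 ∧ r2 ≤ kr P.M P.a p) →
      ∃ W τ V, W ⊆ T.D ∧ Lens W T.g T.Xf τ V d ∧ A ⊆ KV W τ (V - 1) ∧
        ∀ p ∈ KV W τ V, p ∈ D0 P.M P.a P.r1 ∧ r0 ≤ kr P.M P.a p) →
    IsCompact A → (∀ x ∈ A, x ∈ D0 P.M P.a P.r1 ∧ r2 ≤ kr P.M P.a x) →
    (∀ x ∈ A, ∃ y ∈ Rc Z, Cv T.g T.Xf A x (J y)) → Z b ≤ R - 3 * w →
    Kr P r2 k0 T J d d' d1 d2 b σ R w T' δ U Ψ j δ' U' f →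
    ∃ W g Xf τ V, Ref (P.n k0) r0 W g Xf τ V d' T.q ∧ A ⊆ KV W τ (V - 1) ∧
      MapsTo J (Rc (sd b (R + 9 / 4 * w) x2)) (KV W τ (V - 1)) ∧
      (∀ x ∈ A, (∀ᶠ z in 𝓝 x, g z = T.g z ∧ Xf z = T.Xf z) ∧
        (x.1 = 0 → d'.h (xs x) = d.h (xs x))) ∧
      ∀ y ∈ Rg (sd b (R + 9 / 4 * w) x2), IndAt g Xf J d2 y

end Vale.Agent.P354KX
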