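import Vale.Agent.P354KX.Defs
import Vale.Agent.P354LN.Lens
import Vale.Agent.P354YM.G0
import Vale.Agent.P354YJ.Sw

/-!
General lemmas for the kick: crossings, openness and domination for time functions, labels.
-/

open scoped ContDiff
open Set Filter Topology

noncomputable section

namespace Vale.Agent.P354KX

open Vale.Agent.P354n (R4)
open Vale.Agent.P354H (X3)
open Vale.Agent.P354C (Ix)
open Vale.Agent.P354I (X Dat)
open Vale.Agent.P354J (Phi Psi)
open Vale.Agent.P354D (sgn)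
open Vale.Agent.P354PU (JG)
open Vale.Agent.P354XE (Tw Lor)
open Vale.Agent.P354XU (IndAt)
open Vale.Agent.P354XD (tb rp_tb)
open Vale.Agent.P354LN (Mo Ms Ca df)
open Vale.Agent.P354YM (lg)

/-- A function which crosses zero only upwards has one zero. -/
theorem cross {φ : ℝ → ℝ} {a b : ℝ} (hc : ContinuousOn φ (Icc a b))
    (h : ∀ s ∈ Icc a b, φ s = 0 → ∃ φ' > 0, HasDerivAt φ φ' s) (hab : a < b) (h0 : 0 ≤ φ a) :
    0 < φ b := by
  have key : ∀ t ∈ Icc a b, 0 ≤ φ t := fun t ht => by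
    by_contra k
    have sub : Icc a t ⊆ Icc a b := Icc_subset_Icc_right ht.2
    obtain ⟨τ, h1, h2, h3⟩ := P354XJ.last_time (P := Ici 0) isClosed_Ici (hc.mono sub) ht.1 h0 k
    rw [frontier_Ici] at h2
    obtain ⟨F', h4, h5⟩ := h τ (sub (Ico_subset_Icc_self h1)) h2
    have h6 := (P354XJ.sign_of_deriv (I := univ) h5.hasDerivWithinAt h4 h2).1
    rw [univ_inter] at h6
    obtain ⟨u, u1, u2⟩ := (h6.and (Ioc_mem_nhdsGT h1.2)).exists
    exact h3 u u2 u1.le
  refine (key b ⟨hab.le, le_rfl⟩).lt_of_ne fun e => ?_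
  obtain ⟨F', h4, h5⟩ := h b ⟨hab.le, le_rfl⟩ e.symm
  have h6 := (P354XJ.sign_of_deriv (I := univ) h5.hasDerivWithinAt h4 e.symm).2
  rw [univ_inter] at h6
  obtain ⟨u, u1, u2⟩ := (h6.and (Ico_mem_nhdsLT hab)).exists
  exact u1.not_ge (key u (Ico_subset_Icc_self u2))

variable {g : Tw} {D S : Set R4} {Xf : R4 → R4} {f h : R4 → ℝ} {x : R4}

theorem ca_smul (l : Lor g D Xf) (m : x ∈ D) {w : R4} (k : Ca g Xf x w) :
    Ca g Xf x (‖w‖⁻¹ • w) ∧ ‖‖w‖⁻¹ • w‖ = 1 := by
  have B := P354XA.met_bil l.met m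
  have n := inv_pos.2 (norm_pos_iff.2 k.1)
  refine ⟨⟨smul_ne_zero n.ne' k.1, ?_, ?_⟩, norm_smul_inv_norm k.1⟩
  · rw [B.smul_left, B.smul_right]
    exact mul_nonpos_of_nonneg_of_nonpos n.le (mul_nonpos_of_nonneg_of_nonpos n.le k.2.1)
  · rw [B.smul_left]
    exact mul_nonpos_of_nonneg_of_nonpos n.le k.2.2

theorem fd_ct (k : ContDiffAt ℝ 1 f x) (w : R4) :
    ContinuousAt (fun z : R4 × R4 => fderiv ℝ f z.1 z.2) (x, w) :=
  ((k.continuousAt_fderiv one_ne_zero).comp continuousAt_fst).clm_apply continuousAt_snd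

theorem g_ct (l : Lor g D Xf) (m : x ∈ D) (w : R4) :
    ContinuousAt (fun z : R4 × R4 => tb g z.1 z.2 z.2) (x, w) ∧
      ContinuousAt (fun z : R4 × R4 => tb g z.1 z.2 (Xf z.1)) (x, w) := by
  have c := (((rp_tb l.isOpen l.met).at m).continuousAt.comp
    (continuousAt_fst (p := (x, w)))).clm_apply continuousAt_snd
  exact ⟨c.clm_apply continuousAt_snd, c.clm_apply
    ((l.cont.continuousAt (l.isOpen.mem_nhds m)).comp continuousAt_fst)⟩

/-- Being a time function is an open condition. -/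
theorem ms_ev (l : Lor g D Xf) (m : x ∈ D) (k : Ms (Ca g Xf x) f x) :
    ∀ᶠ y in 𝓝 x, y ∈ D ∧ Ms (Ca g Xf y) f y := by
  have r := rp_tb l.isOpen l.met
  have e := (isCompact_sphere (0 : R4) 1).eventually_forall_of_forall_eventually (x₀ := x)
    (P := fun y w => 0 < tb g y w w ∨ 0 < tb g y w (Xf y) ∨ 0 < fderiv ℝ f y w) fun w hw => by
      by_cases c : Ca g Xf x w
      · exact (continuousAt_const.eventually_lt (fd_ct k.1 w) (k.2 w c)).mono
          fun _ i => .inr (.inr i)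
      · rw [Ca, r.eq x m, r.eq x m] at c
        by_cases c' : tb g x w w ≤ 0
        · exact (continuousAt_const.eventually_lt (g_ct l m w).2 (not_le.1 fun i => c
            ⟨ne_zero_of_mem_unit_sphere ⟨w, hw⟩, c', i⟩)).mono fun _ i => .inr (.inl i)
        · exact (continuousAt_const.eventually_lt (g_ct l m w).1 (not_le.1 c')).mono
            fun _ i => .inl i
  filter_upwards [e, l.isOpen.eventually_mem m, k.1.eventually (by simp)] with y e my cy
  refine ⟨my, cy, fun w c => ?_⟩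
  obtain ⟨c1, c2⟩ := ca_smul l my c
  rcases e _ (mem_sphere_zero_iff_norm.2 c2) with i | i | i
  · exact (i.not_ge (r.eq y my _ _ ▸ c1.2.1)).elim
  · exact (i.not_ge (r.eq y my _ _ ▸ c1.2.2)).elim
  · rw [map_smul, smul_eq_mul] at i
    exact (pos_iff_pos_of_mul_pos i).1 (inv_pos.2 (norm_pos_iff.2 c.1))

/-- A large multiple of a time function dominates on a compact set. -/
theorem dom (l : Lor g D Xf) (hS : IsCompact S)
    (k : ∀ x ∈ S, x ∈ D ∧ ContDiffAt ℝ 1 f x ∧ Ms (Ca g Xf x) h x) :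
    ∃ Λ ≥ 0, ∀ x ∈ S, Ms (Ca g Xf x) (fun y => f y + Λ * h y) x := by
  have r := rp_tb l.isOpen l.met
  have c : ∀ {F : R4 × R4 → ℝ}, (∀ x ∈ S, ∀ w, ContinuousAt F (x, w)) →
      ContinuousOn F (S ×ˢ Metric.sphere 0 1) := fun i z hz => (i _ hz.1 _).continuousWithinAt
  have K := hS.prod (isCompact_sphere (0 : R4) 1)
  have K1 := K.of_isClosed_subset ((c fun x m w => ((g_ct l (k x m).1 w).1.max
    (g_ct l (k x m).1 w).2)).preimage_isClosed_of_isClosed K.isClosed (isClosed_Iic (a := 0)))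
    inter_subset_left
  have pos : ∀ z ∈ S ×ˢ Metric.sphere (0 : R4) 1 ∩
      (fun z : R4 × R4 => max (tb g z.1 z.2 z.2) (tb g z.1 z.2 (Xf z.1))) ⁻¹' Iic 0,
      0 < fderiv ℝ h z.1 z.2 := fun z hz => (k _ hz.1.1).2.2.2 _
    ⟨ne_zero_of_mem_unit_sphere ⟨_, hz.1.2⟩, r.eq _ (k _ hz.1.1).1 _ _ ▸ (max_le_iff.1 hz.2).1,
      r.eq _ (k _ hz.1.1).1 _ _ ▸ (max_le_iff.1 hz.2).2⟩
  obtain ⟨B, hB⟩ := K1.bddAbove_image (f := fun z => -fderiv ℝ f z.1 z.2 / fderiv ℝ h z.1 z.2)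
    fun z hz => ((fd_ct (k _ hz.1.1).2.1 z.2).neg.div (fd_ct (k _ hz.1.1).2.2.1 z.2)
      (pos z hz).ne').continuousWithinAt
  refine ⟨|B| + 1, by positivity, fun x m => ?_⟩
  obtain ⟨m1, m2, m3⟩ := k x m
  refine ⟨m2.add (contDiffAt_const.mul m3.1), fun w i => ?_⟩
  obtain ⟨c1, c2⟩ := ca_smul l m1 i
  have z : (x, ‖w‖⁻¹ • w) ∈ S ×ˢ Metric.sphere (0 : R4) 1 ∩
      (fun z : R4 × R4 => max (tb g z.1 z.2 z.2) (tb g z.1 z.2 (Xf z.1))) ⁻¹' Iic 0 :=
    ⟨⟨m, mem_sphere_zero_iff_norm.2 c2⟩,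
      max_le (r.eq x m1 _ _ ▸ c1.2.1) (r.eq x m1 _ _ ▸ c1.2.2)⟩
  have a := (div_le_iff₀ (pos _ z)).1 (hB (mem_image_of_mem _ z))
  have a2 := m3.2 w i
  have n := inv_pos.2 (norm_pos_iff.2 i.1)
  simp only [map_smul, smul_eq_mul] at a
  rw [fderiv_fun_add (df m2) ((df m3.1).const_mul _), fderiv_const_mul (df m3.1)]
  simp only [_root_.add_apply, _root_.smul_apply, smul_eq_mul]
  have a3 : -fderiv ℝ f x w ≤ B * fderiv ℝ h x w := le_of_mul_le_mul_left (by linarith) n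
  nlinarith [le_abs_self B]

/-- A function which vanishes on a slice and increases along nv is a multiple of the time. -/
theorem lev {φ : R4 → ℝ} {p : R4} (c : ContDiffAt ℝ 1 φ p)
    (e : ∀ᶠ q in 𝓝 p, q.1 = p.1 → φ q = φ p) (h : 0 < fderiv ℝ φ p nv) {w : R4} (hw : 0 < w.1) :
    0 < fderiv ℝ φ p w := by
  have d : HasFDerivAt (fun z : X3 => ((p.1, z) : R4)) (ContinuousLinearMap.inr ℝ ℝ X3) p.2 :=
    hasFDerivAt_prodMk_right p.1 p.2
  have k := (((df c).hasFDerivAt.comp p.2 d).congr_of_eventuallyEq (f₁ := fun _ => φ p)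
    ((d.continuousAt.eventually e).mono fun z i => (i rfl).symm)).unique (hasFDerivAt_const _ _)
  have k1 : fderiv ℝ φ p (0, (w - w.1 • nv).2) = 0 := DFunLike.congr_fun k _
  rw [show ((0, (w - w.1 • nv).2) : R4) = w - w.1 • nv from Prod.ext (by simp [nv]) rfl, map_sub,
    map_smul, sub_eq_zero] at k1
  exact k1 ▸ mul_pos hw h

/-- A function with slope one on an interval which is constant far out. -/
theorem ex_F (R : ℝ) {w : ℝ} (hw : 0 < w) : ∃ F : ℝ → ℝ, ContDiff ℝ 1 F ∧ Monotone F ∧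
    (∀ v ∈ Icc (R - 2 * w) (R + 5 / 2 * w), F v = v - R) ∧ ∀ v, F (cl R w v) = F v := by
  let b : ContDiffBump (R + w / 4) := ⟨9 / 4 * w, 5 / 2 * w, by positivity, by linarith⟩
  have c : Continuous b := b.continuous
  have d := fun v => (c.integral_hasStrictDerivAt R v).hasDerivAt
  have z : ∀ u v, (∀ x ∈ uIcc u v, b x = 0) → ∫ x in R..u, b x = ∫ x in R..v, b x :=
    fun u v k => by
      rw [← intervalIntegral.integral_add_adjacent_intervals (c.intervalIntegrable R u)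
        (c.intervalIntegrable u v), intervalIntegral.integral_congr (g := fun _ => 0) k]
      simp
  refine ⟨fun v => ∫ x in R..v, b x, contDiff_one_iff_deriv.2 ⟨fun v => (d v).differentiableAt,
    by rwa [show deriv _ = b from funext fun v => (d v).deriv]⟩, monotone_of_deriv_nonneg
      (fun v => (d v).differentiableAt) fun v => (d v).deriv ▸ b.nonneg, fun v hv => ?_,
    fun v => ?_⟩
  · beta_reduce
    rw [intervalIntegral.integral_congr (g := fun _ => 1) fun x hx => b.one_of_mem_closedBall ?_]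
    · simp
    · have := uIcc_subset_Icc (a₂ := R - 2 * w) (b₂ := R + 5 / 2 * w) ⟨by linarith, by linarith⟩ hv hx
      show |x - (R + w / 4)| ≤ 9 / 4 * w
      exact abs_le.2 ⟨by linarith [this.1], by linarith [this.2]⟩
  · rcases le_total v (R - 11 / 4 * w) with k | k
    · rw [cl, min_eq_left (by linarith), max_eq_left k]
      refine z _ _ fun x hx => b.zero_of_le_dist (show 5 / 2 * w ≤ |x - (R + w / 4)| from
        le_abs.2 (.inr ?_))
      rw [uIcc_of_ge k] at hx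
      linarith [hx.2]
    rcases le_total v (R + 15 / 4 * w) with j | j
    · rw [cl, min_eq_left j, max_eq_right k]
    · rw [cl, min_eq_right j, max_eq_right (by linarith)]
      refine z _ _ fun x hx => b.zero_of_le_dist (show 5 / 2 * w ≤ |x - (R + w / 4)| from
        le_abs.2 (.inl ?_))
      rw [uIcc_of_le j] at hx
      linarith [hx.1]

theorem indAt_of {g' : Tw} {X' : R4 → R4} {J : X → R4} {d d' : Dat} {y : X} (k : IndAt g Xf J d y)
    (e : ∀ᶠ z in 𝓝 (J y), g' z = g z ∧ X' z = Xf z) (e' : d'.h y = d.h y ∧ d'.K y = d.K y) :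
    IndAt g' X' J d' y := by
  obtain ⟨G, n, a, b⟩ := k
  have e1 : ∀ u v t, P354n.deriv (fun z => g' z u v) (J y) t =
      P354n.deriv (fun z => g z u v) (J y) t := fun u v t =>
    EventuallyEq.lineDeriv_eq (e.mono fun z i => by simp only [i.1])
  refine ⟨G, n, fun u v t => ?_, ?_⟩
  · rw [e1, e1, e1, e.self_of_nhds.1]
    exact a u v t
  · rwa [e.self_of_nhds.1, e.self_of_nhds.2, e'.1, e'.2]

/-! ### The labels -/

theorem lb_eq (b σ : Bool) (z : X3) : lb b σ z = Phi σ (sgn b * z.1, z.2) := by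
  cases b <;> simp [lb, sgn, P354YJ.iv_phi, P354YJ.ng]

theorem lb_ne (b σ : Bool) (z : X3) : lb b σ z ≠ 0 := lb_eq b σ z ▸ P354J.phi_ne _ _

theorem lg_lb (b σ : Bool) (z : X3) : lg b (lb b σ z) = z.1 := by
  rw [lb_eq, lg, P354JK.norm_phi, Real.log_exp, ← mul_assoc, P354YM.sgn_sq, one_mul]

theorem lb_cov (b : Bool) {y : X} (hy : y ≠ 0) :
    ∃ σ, ∃ z : X3, z.1 = lg b y ∧ ‖z.2‖ ≤ 1 ∧ lb b σ z = y := by
  obtain ⟨σ, h⟩ : ∃ σ, 0 ≤ P354E.sg σ * y 2 := by
    rcases le_total 0 (y 2) with h | h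
    exacts [⟨true, by simpa [P354E.sg]⟩, ⟨false, by simpa [P354E.sg]⟩]
  have n := norm_pos_iff.2 hy
  have d : 0 < ‖y‖ + P354E.sg σ * y 2 := by linarith
  have k : ∀ i, |y i / (‖y‖ + P354E.sg σ * y 2)| ≤ 1 := fun i => by
    rw [abs_div, abs_of_pos d, div_le_one d]
    exact (PiLp.norm_apply_le y i).trans (by linarith)
  refine ⟨σ, (lg b y, (Psi σ y).2), rfl, max_le (k 0) (k 1), ?_⟩
  rw [lb_eq, lg, ← mul_assoc, P354YM.sgn_sq, one_mul]
  exact P354JK.phi_psi σ hy d.ne'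

theorem lb_sm (b σ : Bool) : ContDiff ℝ ∞ (lb b σ) := by
  rw [funext (lb_eq b σ)]
  exact (P354JK.phi_smooth σ).comp (by fun_prop)

theorem lb_det (b σ : Bool) (z : X3) : (JG (lb b σ) z).det ≠ 0 := by
  have L := ((hasFDerivAt_fst (𝕜 := ℝ) (p := z)).const_mul (sgn b)).prodMk hasFDerivAt_snd
  have e : JG (lb b σ) z = Matrix.diagonal ![sgn b, 1, 1] * P354J.Jm σ (sgn b * z.1, z.2) := by
    ext a i
    have c : DifferentiableAt ℝ (fun w => Phi σ w i) (sgn b * z.1, z.2) :=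
      ((contDiff_euclidean.1 (P354JK.phi_smooth σ) i).differentiable (by simp)) _
    have := (c.hasFDerivAt.comp z L).fderiv
    simp only [Matrix.diagonal_mul, JG, P354J.Jm, Matrix.of_apply, P354H.pd, lb_eq]
    erw [this]
    rw [ContinuousLinearMap.comp_apply, ← smul_eq_mul (![sgn b, 1, 1] a), ← map_smul]
    fin_cases a <;> simp [P354H.e]
  rw [e, Matrix.det_mul, Matrix.det_diagonal]
  exact mul_ne_zero (by cases b <;> simp [sgn, Fin.prod_univ_three]) (P354J.det_Jm _ _)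

end Vale.Agent.P354KX
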